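import Mathlib

/-! Real sequences: the Moebius recursion cannot stay in the region `Re > 0`, `Im ≥ -Z/2`. -/

namespace Vale.Agent.P139Z.Alg

theorem no_dec {f : ℕ → ℝ} {δ L : ℝ} (hδ : 0 < δ) (h : ∀ k, f (k + 1) ≤ f k - δ)
    (hL : ∀ k, L ≤ f k) : False := by
  have h1 : ∀ k : ℕ, f k ≤ f 0 - k * δ := by
    intro k
    induction k with
    | zero => simp
    | succ k ih => have := h k; push_cast; linarith
  obtain ⟨k, hk⟩ := exists_nat_gt ((f 0 - L) / δ)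
  rw [div_lt_iff₀ hδ] at hk
  have := h1 k
  have := hL k
  linarith

theorem bound_re {x s ν om b x' : ℝ} (hx : 0 < x) (hν : 0 < ν) (hom : om ^ 2 ≤ ν ^ 2)
    (hb : b ^ 2 ≤ ν ^ 2)
    (e : x' * ((x + ν) ^ 2 + (s + om) ^ 2)
      = (ν ^ 2 + om ^ 2 + b ^ 2) * x + ν * (x ^ 2 + s ^ 2 + b ^ 2)) : x' ≤ 3 * ν := by
  have hD : 0 < (x + ν) ^ 2 + (s + om) ^ 2 := by positivity
  have hs : s ^ 2 ≤ 2 * (s + om) ^ 2 + 2 * om ^ 2 := by nlinarith [sq_nonneg (s + 2 * om)]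
  refine le_of_mul_le_mul_right ?_ hD
  rw [e]
  have h1 : (ν ^ 2 + om ^ 2 + b ^ 2) * x ≤ 3 * ν ^ 2 * x :=
    mul_le_mul_of_nonneg_right (by linarith) hx.le
  have h2 : ν * (x ^ 2 + s ^ 2 + b ^ 2) ≤ ν * (x ^ 2 + 2 * (s + om) ^ 2 + 3 * ν ^ 2) :=
    mul_le_mul_of_nonneg_left (by linarith) hν.le
  have h3 : 0 ≤ ν * x ^ 2 := by positivity
  have h4 : 0 ≤ ν ^ 2 * x := by positivity
  have h5 : 0 ≤ ν * (s + om) ^ 2 := by positivity
  nlinarith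

theorem bound_im {x s ν om b t : ℝ} (hx : 0 < x) (hν : 0 < ν) (hom : |om| ≤ ν)
    (hb : b ^ 2 ≤ ν ^ 2)
    (e : t * ((x + ν) ^ 2 + (s + om) ^ 2)
      = (ν ^ 2 + om ^ 2 - b ^ 2) * s + om * (x ^ 2 + s ^ 2 - b ^ 2)) : t ≤ 6 * ν := by
  have hD : 0 < (x + ν) ^ 2 + (s + om) ^ 2 := by positivity
  have hom2 : om ^ 2 ≤ ν ^ 2 := by rw [← sq_abs om]; exact pow_le_pow_left₀ (abs_nonneg _) hom 2
  have hs : s ^ 2 ≤ 2 * (s + om) ^ 2 + 2 * om ^ 2 := by nlinarith [sq_nonneg (s + 2 * om)]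
  refine le_of_mul_le_mul_right ?_ hD
  rw [e]
  have h0 : 0 ≤ ν ^ 2 + om ^ 2 - b ^ 2 := by nlinarith [sq_nonneg om]
  have h0' : ν ^ 2 + om ^ 2 - b ^ 2 ≤ 2 * ν ^ 2 := by nlinarith [sq_nonneg b]
  have h1 : (ν ^ 2 + om ^ 2 - b ^ 2) * s ≤ 2 * ν ^ 2 * |s| :=
    (mul_le_mul_of_nonneg_left (le_abs_self s) h0).trans
      (mul_le_mul_of_nonneg_right h0' (abs_nonneg s))
  have h1' : 2 * ν ^ 2 * |s| ≤ ν * (ν ^ 2 + s ^ 2) := by
    have : 2 * ν * |s| ≤ ν ^ 2 + s ^ 2 := by nlinarith [sq_nonneg (ν - |s|), sq_abs s]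
    nlinarith
  have h2 : om * (x ^ 2 + s ^ 2 - b ^ 2) ≤ ν * (x ^ 2 + s ^ 2 + ν ^ 2) := by
    calc om * (x ^ 2 + s ^ 2 - b ^ 2) ≤ |om * (x ^ 2 + s ^ 2 - b ^ 2)| := le_abs_self _
      _ = |om| * |x ^ 2 + s ^ 2 - b ^ 2| := abs_mul _ _
      _ ≤ ν * (x ^ 2 + s ^ 2 + ν ^ 2) := by
        refine mul_le_mul hom ?_ (abs_nonneg _) hν.le
        rw [abs_le]
        constructor <;> nlinarith [sq_nonneg x, sq_nonneg s, sq_nonneg b]
  have h3 : 0 ≤ ν * x ^ 2 := by positivity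
  have h4 : 0 ≤ ν ^ 2 * x := by positivity
  have h5 : 0 ≤ ν * (s + om) ^ 2 := by positivity
  have h6 : ν * s ^ 2 ≤ ν * (2 * (s + om) ^ 2 + 2 * ν ^ 2) :=
    mul_le_mul_of_nonneg_left (by linarith) hν.le
  nlinarith

theorem step_aux1 {x s ν om : ℝ} (hx : 0 < x) (hν : 0 < ν) (hom : |om| ≤ ν) (hx3 : x ≤ 3 * ν)
    (hs6 : s ≤ 6 * ν) : max (s - om * x / ν) 0 ≤ 9 * ν := by
  refine max_le ?_ (by linarith)
  have : -(3 * ν) ≤ om * x / ν := by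
    rw [le_div_iff₀ hν]
    have h1 : |om| * x ≤ ν * (3 * ν) := mul_le_mul hom hx3 hx.le hν.le
    have h2 : -|om| * x ≤ om * x := mul_le_mul_of_nonneg_right (neg_abs_le om) hx.le
    linarith
  linarith

theorem step_aux2 {x s ν om Z : ℝ} (hx : 0 < x) (hν : 0 < ν) (hs : -(Z / 2) ≤ s)
    (hx3 : x ≤ 3 * ν) : -(ν * s + om * x) - 2 * ν * om ≤ (Z / 2 + 5 * |om|) * ν := by
  have h3 : |om| * x ≤ |om| * (3 * ν) := mul_le_mul_of_nonneg_left hx3 (abs_nonneg om)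
  have h4 : ν * -(Z / 2) ≤ ν * s := mul_le_mul_of_nonneg_left hs hν.le
  have h5 : ν * -|om| ≤ ν * om := mul_le_mul_of_nonneg_left (neg_abs_le om) hν.le
  have h2 : -|om| * x ≤ om * x := mul_le_mul_of_nonneg_right (neg_abs_le om) hx.le
  linarith

theorem step_aux3 {W D ν om M c : ℝ} (hν : 1 ≤ ν) (hD : ν ^ 2 ≤ D) (hM0 : 0 ≤ M)
    (hM9 : M ≤ 9 * ν) (hc : 0 ≤ c) (e4 : W * D ≤ (ν ^ 2 + om ^ 2) * M + c) :
    W * ν ≤ M * ν + 9 * om ^ 2 + c := by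
  have hν0 : 0 < ν := by linarith
  have hom2 := sq_nonneg om
  by_cases hW0 : W ≤ 0
  · have h1 : W * ν ≤ 0 := mul_nonpos_of_nonpos_of_nonneg hW0 hν0.le
    have h2 : 0 ≤ M * ν := by positivity
    linarith
  · push Not at hW0
    have h1 : W * ν ^ 2 ≤ W * D := mul_le_mul_of_nonneg_left hD hW0.le
    have h2 : om ^ 2 * M ≤ om ^ 2 * (9 * ν) := mul_le_mul_of_nonneg_left hM9 hom2
    have h3 : c * 1 ≤ c * ν := mul_le_mul_of_nonneg_left hν hc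
    refine le_of_mul_le_mul_right ?_ hν0
    linarith

theorem step_aux4 {x' ν om : ℝ} (hx' : 0 < x') (hν : 0 < ν) (hx3' : x' ≤ 3 * ν) :
    om * x' / ν - om * x' / (ν + 1) ≤ 3 * |om| / ν := by
  have h1 : om * x' / ν - om * x' / (ν + 1) = om * (x' / (ν + 1)) / ν := by
    field_simp
    ring
  rw [h1]
  refine div_le_div_of_nonneg_right ?_ hν.le
  have h2 : x' / (ν + 1) ≤ 3 := by rw [div_le_iff₀ (by linarith)]; linarith
  have h3 : 0 ≤ x' / (ν + 1) := by positivity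
  calc om * (x' / (ν + 1)) ≤ |om| * (x' / (ν + 1)) :=
        mul_le_mul_of_nonneg_right (le_abs_self om) h3
    _ ≤ |om| * 3 := mul_le_mul_of_nonneg_left h2 (abs_nonneg om)
    _ = 3 * |om| := by ring

/-- One step for the rotated imaginary part. -/
theorem step_T {x s ν om b Z x' s' : ℝ} (hx : 0 < x) (hν : 1 ≤ ν) (hom : |om| ≤ ν)
    (hZ : 0 < Z) (hs : -(Z / 2) ≤ s) (hx3 : x ≤ 3 * ν) (hs6 : s ≤ 6 * ν) (hx' : 0 < x')
    (hx3' : x' ≤ 3 * ν)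
    (hC : 4 * (b ^ 2 * (Z / 2 + 5 * |om|) + 9 * om ^ 2 + 3 * |om|) ≤ Z * ν)
    (e1 : x' * ((x + ν) ^ 2 + (s + om) ^ 2)
      = (ν ^ 2 + om ^ 2 + b ^ 2) * x + ν * (x ^ 2 + s ^ 2 + b ^ 2))
    (e2 : (s' + Z) * ((x + ν) ^ 2 + (s + om) ^ 2)
      = (ν ^ 2 + om ^ 2 - b ^ 2) * s + om * (x ^ 2 + s ^ 2 - b ^ 2)) :
    s' - om * x' / (ν + 1) ≤ max (s - om * x / ν) 0 - 3 * Z / 4 := by
  have hν0 : 0 < ν := by linarith
  have hD1 : ν ^ 2 ≤ (x + ν) ^ 2 + (s + om) ^ 2 := by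
    have h1 : ν ^ 2 ≤ (x + ν) ^ 2 := pow_le_pow_left₀ hν0.le (by linarith) 2
    linarith [sq_nonneg (s + om)]
  have hM9 := step_aux1 hx hν0 hom hx3 hs6
  have h2 := step_aux2 (om := om) hx hν0 hs hx3
  have e6 := step_aux4 (om := om) hx' hν0 hx3'
  obtain ⟨D, hD⟩ : ∃ D, D = (x + ν) ^ 2 + (s + om) ^ 2 := ⟨_, rfl⟩
  obtain ⟨T, hT⟩ : ∃ T, T = s - om * x / ν := ⟨_, rfl⟩
  obtain ⟨W, hW⟩ : ∃ W, W = s' + Z - om * x' / ν := ⟨_, rfl⟩
  obtain ⟨c, hc⟩ : ∃ c, c = b ^ 2 * (Z / 2 + 5 * |om|) := ⟨_, rfl⟩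
  rw [← hD] at e1 e2 hD1
  rw [← hT] at hM9 ⊢
  rw [← hc] at hC
  have hTM : T ≤ max T 0 := le_max_left _ _
  have hM0 : 0 ≤ max T 0 := le_max_right _ _
  generalize max T 0 = M at hM9 hTM hM0 ⊢
  have e3 : W * ν * D
      = (ν ^ 2 + om ^ 2) * (T * ν) - b ^ 2 * (ν * s + om * x) - 2 * b ^ 2 * ν * om := by
    have h1 : W * ν = (s' + Z) * ν - om * x' := by rw [hW]; field_simp
    have h2 : T * ν = s * ν - om * x := by rw [hT]; field_simp
    rw [h1, h2]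
    linear_combination ν * e2 - om * e1
  have hc0 : 0 ≤ c := by rw [hc]; positivity
  have e4 : W * D ≤ (ν ^ 2 + om ^ 2) * M + c := by
    refine le_of_mul_le_mul_right ?_ hν0
    have h1 : (ν ^ 2 + om ^ 2) * (T * ν) ≤ (ν ^ 2 + om ^ 2) * (M * ν) :=
      mul_le_mul_of_nonneg_left (mul_le_mul_of_nonneg_right hTM hν0.le) (by positivity)
    have h3 : b ^ 2 * (-(ν * s + om * x) - 2 * ν * om) ≤ b ^ 2 * ((Z / 2 + 5 * |om|) * ν) :=
      mul_le_mul_of_nonneg_left h2 (sq_nonneg b)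
    rw [hc]
    linarith
  have e5 := step_aux3 hν hD1 hM0 hM9 hc0 e4
  have e7 : W + 3 * |om| / ν ≤ M + Z / 4 := by
    refine le_of_mul_le_mul_right ?_ hν0
    have : (W + 3 * |om| / ν) * ν = W * ν + 3 * |om| := by field_simp
    rw [this]
    linarith
  linarith

/-- One step for the inverse of the real part. -/
theorem step_inv {x s ν om b S x' : ℝ} (hx : 0 < x) (hν : 0 < ν) (hx3 : x ≤ 3 * ν) (hx' : 0 < x')
    (hS : s ^ 2 ≤ S) (hbig : 5 * (om ^ 2 + b ^ 2 + S) ≤ x ^ 2)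
    (e1 : x' * ((x + ν) ^ 2 + (s + om) ^ 2)
      = (ν ^ 2 + om ^ 2 + b ^ 2) * x + ν * (x ^ 2 + s ^ 2 + b ^ 2)) :
    ν / x + 1 / 2 ≤ (ν + 1) / x' := by
  set C := om ^ 2 + b ^ 2 + S with hC
  have hS0 : 0 ≤ S := (sq_nonneg s).trans hS
  have hC0 : 0 ≤ C := by positivity
  have hxν : 0 < x + ν := by linarith
  have h1 : x' * (x + ν) ≤ ν * x + C := by
    refine le_of_mul_le_mul_right ?_ hxν
    have h2 : 0 ≤ x' * (s + om) ^ 2 := by positivity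
    have h3 : (om ^ 2 + b ^ 2) * x ≤ C * x :=
      mul_le_mul_of_nonneg_right (by rw [hC]; linarith) hx.le
    have h4 : ν * (s ^ 2 + b ^ 2) ≤ ν * C :=
      mul_le_mul_of_nonneg_left (by rw [hC]; nlinarith [sq_nonneg om]) hν.le
    nlinarith
  have h2 : (ν + x / 2) * (ν * x + C) ≤ ν * x * (x + ν) := by
    have h3 : C * (ν + x / 2) ≤ C * (5 / 2 * ν) := mul_le_mul_of_nonneg_left (by linarith) hC0
    have h4 : ν * (5 * C) ≤ ν * x ^ 2 := mul_le_mul_of_nonneg_left hbig hν.le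
    nlinarith
  have h3 : (ν + x / 2) * x' ≤ ν * x := by
    refine le_of_mul_le_mul_right ?_ hxν
    have : (ν + x / 2) * (x' * (x + ν)) ≤ (ν + x / 2) * (ν * x + C) :=
      mul_le_mul_of_nonneg_left h1 (by linarith)
    nlinarith
  rw [le_div_iff₀ hx']
  have h4 : (ν / x + 1 / 2) * x' = (ν + x / 2) * x' / x := by field_simp
  rw [h4, div_le_iff₀ hx]
  nlinarith

theorem no_seq {x s : ℕ → ℝ} {ν₀ om b Z : ℝ} (hZ : 0 < Z) (hx : ∀ k, 0 < x k)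
    (hs : ∀ k, -(Z / 2) ≤ s (k + 1))
    (e1 : ∀ k : ℕ, x (k + 1) * ((x k + (ν₀ + k)) ^ 2 + (s k + om) ^ 2)
      = ((ν₀ + k) ^ 2 + om ^ 2 + b ^ 2) * x k + (ν₀ + k) * (x k ^ 2 + s k ^ 2 + b ^ 2))
    (e2 : ∀ k : ℕ, (s (k + 1) + Z) * ((x k + (ν₀ + k)) ^ 2 + (s k + om) ^ 2)
      = ((ν₀ + k) ^ 2 + om ^ 2 - b ^ 2) * s k + om * (x k ^ 2 + s k ^ 2 - b ^ 2)) : False := by
  set S := (3 * |om| + Z) ^ 2 with hS
  set R := max (max (max 1 |om|) |b|)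
    (max (4 * (b ^ 2 * (Z / 2 + 5 * |om|) + 9 * om ^ 2 + 3 * |om|) / Z)
      (80 * (om ^ 2 + b ^ 2 + S) * om ^ 2 / Z ^ 2)) with hR
  obtain ⟨K, hK⟩ := exists_nat_ge (R - ν₀)
  have hRk : ∀ k : ℕ, K ≤ k → R ≤ ν₀ + k := by
    intro k hk
    have : (K : ℝ) ≤ k := by exact_mod_cast hk
    linarith
  have r1 : ∀ k : ℕ, K ≤ k → 1 ≤ ν₀ + k := fun k hk =>
    le_trans (le_trans (le_trans (le_max_left _ _) (le_max_left _ _)) (le_max_left _ _)) (hRk k hk)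
  have r2 : ∀ k : ℕ, K ≤ k → |om| ≤ ν₀ + k := fun k hk =>
    le_trans (le_trans (le_trans (le_max_right _ _) (le_max_left _ _)) (le_max_left _ _))
      (hRk k hk)
  have r3 : ∀ k : ℕ, K ≤ k → b ^ 2 ≤ (ν₀ + k) ^ 2 := fun k hk => by
    have : |b| ≤ ν₀ + k := le_trans (le_trans (le_max_right _ _) (le_max_left _ _)) (hRk k hk)
    rw [← sq_abs b]
    exact pow_le_pow_left₀ (abs_nonneg _) this 2
  have r2' : ∀ k : ℕ, K ≤ k → om ^ 2 ≤ (ν₀ + k) ^ 2 := fun k hk => by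
    rw [← sq_abs om]
    exact pow_le_pow_left₀ (abs_nonneg _) (r2 k hk) 2
  have r4 : ∀ k : ℕ, K ≤ k →
      4 * (b ^ 2 * (Z / 2 + 5 * |om|) + 9 * om ^ 2 + 3 * |om|) ≤ Z * (ν₀ + k) := fun k hk => by
    have := le_trans (le_trans (le_max_left _ _) (le_max_right _ _)) (hRk k hk)
    rw [div_le_iff₀ hZ] at this
    linarith
  have r5 : ∀ k : ℕ, K ≤ k →
      80 * (om ^ 2 + b ^ 2 + S) * om ^ 2 ≤ (ν₀ + k) * Z ^ 2 := fun k hk => by
    have := le_trans (le_trans (le_max_right _ _) (le_max_right _ _)) (hRk k hk)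
    rwa [div_le_iff₀ (by positivity)] at this
  have b1 : ∀ k : ℕ, K ≤ k → x (k + 1) ≤ 3 * (ν₀ + k) := fun k hk =>
    bound_re (hx k) (by linarith [r1 k hk]) (r2' k hk) (r3 k hk) (e1 k)
  have b2 : ∀ k : ℕ, K ≤ k → s (k + 1) ≤ 6 * (ν₀ + k) := fun k hk => by
    have := bound_im (hx k) (by linarith [r1 k hk]) (r2 k hk) (r3 k hk) (e2 k)
    linarith
  set T : ℕ → ℝ := fun k => s k - om * x k / (ν₀ + k) with hT
  have hstep : ∀ k : ℕ, K ≤ k → T (k + 2) ≤ max (T (k + 1)) 0 - 3 * Z / 4 := by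
    intro k hk
    have hk1 : K ≤ k + 1 := by omega
    have h1 := b1 k hk
    have h2 := b2 k hk
    have hc : ((k + 1 : ℕ) : ℝ) = k + 1 := by push_cast; ring
    have := step_T (hx (k + 1)) (r1 _ hk1) (r2 _ hk1) hZ (hs k) (by rw [hc]; linarith)
      (by rw [hc]; linarith [r1 k hk]) (hx (k + 1 + 1)) (b1 _ hk1) (r4 _ hk1) (e1 (k + 1))
      (e2 (k + 1))
    simp only [hT]
    have hc2 : ν₀ + ((k + 2 : ℕ) : ℝ) = ν₀ + ((k + 1 : ℕ) : ℝ) + 1 := by push_cast; ring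
    rw [hc2]
    exact this
  have hex : ∃ k, K ≤ k ∧ T (k + 1) ≤ 0 := by
    by_contra hne
    push Not at hne
    refine no_dec (f := fun j => T (K + j + 1)) (δ := 3 * Z / 4) (L := 0) (by linarith) ?_ ?_
    · intro j
      have := hstep (K + j) (by omega)
      rw [max_eq_left (hne (K + j) (by omega)).le] at this
      exact this
    · intro j
      exact (hne (K + j) (by omega)).le
  obtain ⟨k₀, hk₀, hT0⟩ := hex
  have hneg : ∀ j : ℕ, T (k₀ + j + 2) ≤ -(3 * Z / 4) := by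
    intro j
    induction j with
    | zero =>
      have := hstep k₀ hk₀
      rw [max_eq_right hT0] at this
      simpa using this
    | succ j ih =>
      have := hstep (k₀ + j + 1) (by omega)
      rw [max_eq_right (by linarith)] at this
      have e : k₀ + (j + 1) + 2 = k₀ + j + 1 + 2 := by ring
      rw [e]
      linarith
  have key : ∀ j : ℕ, Z / 4 * (ν₀ + (k₀ + j + 2 : ℕ)) ≤ om * x (k₀ + j + 2) := by
    intro j
    have h1 := hneg j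
    have h2 := hs (k₀ + j + 1)
    simp only [hT] at h1
    have h3 := r1 (k₀ + j + 2) (by omega)
    have h4 : Z / 4 ≤ om * x (k₀ + j + 2) / (ν₀ + (k₀ + j + 2 : ℕ)) := by linarith
    rwa [le_div_iff₀ (by linarith)] at h4
  have hom : 0 < om := by
    have h1 := key 0
    have h3 := r1 (k₀ + 0 + 2) (by omega)
    have h4 : 0 < om * x (k₀ + 0 + 2) := lt_of_lt_of_le (by positivity) h1
    exact (pos_iff_pos_of_mul_pos h4).2 (hx _)
  refine no_dec (f := fun j => -((ν₀ + (k₀ + j + 2 : ℕ)) / x (k₀ + j + 2))) (δ := 1 / 2)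
    (L := -(4 * om / Z)) (by norm_num) ?_ ?_
  · intro j
    set k := k₀ + j + 2 with hk
    have hKk : K ≤ k := by omega
    have h1 := r1 k hKk
    have hx3 : x k ≤ 3 * (ν₀ + k) := by
      have := b1 (k₀ + j + 1) (by omega)
      have hc : (k : ℝ) = ((k₀ + j + 1 : ℕ) : ℝ) + 1 := by rw [hk]; push_cast; ring
      rw [hc]
      linarith
    have hsk : s k ^ 2 ≤ S := by
      have h2 := hneg j
      simp only [hT] at h2
      have h3 : om * x k / (ν₀ + k) ≤ 3 * |om| := by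
        rw [div_le_iff₀ (by linarith), abs_of_pos hom]
        nlinarith
      have h4 : -(Z / 2) ≤ s k := hs (k₀ + j + 1)
      have h5 := abs_nonneg om
      exact sq_le_sq' (by linarith) (by linarith)
    have hbig : 5 * (om ^ 2 + b ^ 2 + S) ≤ x k ^ 2 := by
      have h2 := key j
      have h3 := r5 k hKk
      have h4 : (Z / 4 * (ν₀ + k)) ^ 2 ≤ (om * x k) ^ 2 :=
        pow_le_pow_left₀ (by positivity) h2 2
      have h5 : (ν₀ + k) * Z ^ 2 ≤ (ν₀ + k) ^ 2 * Z ^ 2 :=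
        mul_le_mul_of_nonneg_right (by nlinarith) (by positivity)
      refine le_of_mul_le_mul_right ?_ (show 0 < om ^ 2 by positivity)
      nlinarith
    have := step_inv (hx k) (by linarith) hx3 (hx (k + 1)) hsk hbig (e1 k)
    have e : k₀ + (j + 1) + 2 = k + 1 := by rw [hk]; ring
    have hc : ν₀ + ((k + 1 : ℕ) : ℝ) = ν₀ + k + 1 := by push_cast; ring
    simp only [e, hc]
    linarith
  · intro j
    have h1 := key j
    have h2 := hx (k₀ + j + 2)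
    rw [neg_le_neg_iff, div_le_div_iff₀ h2 hZ]
    linarith

end Vale.Agent.P139Z.Alg
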